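import Vale.Agent.P032X.H892.Fam
import Vale.Agent.P032X.Cert.X3.All

/-!
# P032: block X3 : no unit pair of a five-coloured point and a point with four colours, if there is no pair of block X1
and no two-pair point next to a five-coloured point
-/

open Vale.Agent.P032.Six Vale.Agent.P032.H61 Vale.Agent.P032.BlkE Vale.Agent.P032.H61.TF

/-- **the block X3** -/
theorem Vale.Agent.P032.X3.dead : Dead (kap TF.TC) (CW Vale.Agent.P032.Fam.Q3 5 4 73 TF.TC) [] :=
  Vale.Agent.P032X.Cert.X3.xp3
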